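import Vale.Agent.P240.R2.H490.Odd
import Vale.Agent.P240.R2.H490.Top

open Vale.Agent.P240 Vale.Agent.P240.K Vale.Agent.P240.H195
open Vale.Agent.P240.R2.H487 (Other)
open Vale.Agent.P240.R2.H487.N Vale.Agent.P240.R2.H490
open Vale.Agent.P240.R2.H63 (OrdFree)
open Subgroup

universe u v

/-- Let `p` be an odd prime and `𝕜` a field. `HQ 𝕜 p G` means that `𝒜ₚ(G)` is not `𝕜`-acyclic: its
reduced homology with coefficients in `𝕜` is not zero. All groups are finite, `F` is a finite field.
(1) Let `O_p(G) = 1`, and suppose that every nonabelian composition factor of `G` of order divisible by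
`p` is known (`Known p`): an alternating group; `PSL_n(F)`; `PSp_{2m}(F)`, `m ≥ 2`; `PSU_n(q)`, `n ≥ 3`;
`PΩ(Q)` for a quadratic form `Q` of dimension `n ≥ 5` with nondegenerate polar form; a group of
exceptional type (generated by elements that satisfy Chevalley's relations for the root system, or
their form for the twisted groups): `G₂(F)`, `F₄(F)`, `E₆(F)`, `E₇(F)`, `E₈(F)`, `³D₄(q)`, `²E₆(q)`,
`²F₄(q)`, `Sz(q)`, `²G₂(q)`; or a group `L` with `|Out(L)| ≤ 2` such that `HQ` holds over `ℚ` for all
groups `A` with `Inn(L) ≤ A ≤ Aut(L)` (by Aschbacher and Kleidman this is true for the sporadic groups).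
Then `HQ(G)`, and the geometric realization of `𝒜ₚ(G)` is not contractible. The factors may also satisfy
`OrdFree p`, or `CycAut p` (the Sylow `p`-subgroups of `Aut(L)` are cyclic), or `Other` with `l = 2`.
(2) In (1) it is enough that the components of `C_G(N) / (N ∩ C_G(N))` are as required, where `N` is the
largest normal `p'`-subgroup of `G`.
(3) Elimination. Let `D` be a conjugation-stable set of subgroups of `G` that commute with each other;
suppose that each `L ∈ D` is a nonabelian simple group of order divisible by `p` that satisfies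
`ElimOdd p` (an alternating group, a group with `CycAut p`, a group of Lie type, without `PSU_n(2)`,
`PSU_n(8)`, `PSp_{2m}(F)` and `PΩ(Q)` for `|F|` even, `PΩ(Q)` with `n = 8`, `p = 3` in characteristic
`≠ 3`, and, if `p = 3` and the characteristic is not `3`, `²E₆(q)`, where `3` divides `q + 1` and `q` is
a cube) or is `E₆(F)` for any `F`. Then `HQ(C_G(D))` implies `HQ(G)`.
(4) Minimal counterexamples. Suppose that `O_p(G) = 1` and `HQ(G)` fails, but `HQ(H)` holds for all
groups `H` of smaller order with `O_p(H) = 1`. Then no simple component of `G` is as in (3). -/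
theorem Vale.Agent.Results.P240.AllOdd.result {𝕜 : Type v} [Field 𝕜] {p : ℕ} (hp : p.Prime)
    (hp2 : p ≠ 2) :
    (∀ (G : Type u) [Group G] [Finite G], OpTrivial p G →
      (Factors p G fun L _ => Known p L ∨ OrdFree p L ∨ CycAut p L ∨ Other 𝕜 p 2 L) →
        HQ 𝕜 p G ∧ ¬ ContractibleSpace (Realization (Ap p G))) ∧
    (∀ (G : Type u) [Group G] [Finite G], OpTrivial p G → ∀ (N : Subgroup G) [N.Normal],
      (RedComp p N fun L _ => Known p L ∨ OrdFree p L ∨ CycAut p L ∨ Other 𝕜 p 2 L) →
        HQ 𝕜 p G ∧ ¬ ContractibleSpace (Realization (Ap p G))) ∧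
    (∀ (G : Type u) [Group G] [Finite G] (D : Set (Subgroup G)), Family D →
      (∀ L ∈ D, SimpleDiv p L ∧ (ElimOdd p L ∨ IsE6 L)) → HQ 𝕜 p (CenFam D) → HQ 𝕜 p G) ∧
    ∀ (G : Type u) [Group G] [Finite G], MinCounter 𝕜 p G →
      ∀ L ∈ Q.Comp G, ¬ (ElimOdd p L ∨ IsE6 L) :=
  ⟨fun _ _ _ hO h => ⟨odd_all hp hp2 hO h, hq_not_contractible (odd_all (𝕜 := 𝕜) hp hp2 hO h)⟩,
    fun _ _ _ hO N _ h => ⟨odd_comp hp hp2 hO N h,
      hq_not_contractible (odd_comp (𝕜 := 𝕜) hp hp2 hO N h)⟩,
    fun _ _ _ _ hD h hC => odd_family hp hp2 hD h hC,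
    fun _ _ _ h => odd_minimal hp hp2 h⟩
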