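import Vale.Agent.P240.R2.H314.Fin5

open Vale.Agent.P240 Vale.Agent.P240.K
open Vale.Agent.P240.R2.H487.N Vale.Agent.P240.R2.H490 Vale.Agent.P240.R2.H314
open Subgroup

universe u v

/-- **Quillen's conjecture for all primes, over all fields.** Let `p` be a prime and `G` a finite group
with `O_p(G) = 1`.
(1) Suppose that every nonabelian composition factor of `G` of order divisible by `p` satisfies
`FacA p`: it is an alternating group; `PSL_n(F)`; `PSp_{2m}(F)`, `m ≥ 2`; `PSU_n(q)`, `n ≥ 3`; `PΩ(Q)`
for a quadratic form `Q` of dimension `n ≥ 5` with nondegenerate polar form; a group of exceptional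
type (generated by elements that satisfy Chevalley's relations for the root system, or their form for
the twisted groups): `G₂(F)`, `F₄(F)`, `E₆(F)`, `E₇(F)`, `E₈(F)`, `³D₄(q)`, `²E₆(q)`, `²F₄(q)`, `Sz(q)`,
`²G₂(q)`, where `F` is any finite field; or a group as in `OrdFree`, `CycAut`, `NormFree` (the sporadic
groups and the Tits group satisfy one of these conditions, for every `p`) or `SmallOut`. Then the
geometric realization of `𝒜ₚ(G)` is not contractible, and the reduced homology of `𝒜ₚ(G)` with
coefficients in any field `𝕜` is not zero (`HQ`).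
(2) It is enough that the components of `C_G(N) / (N ∩ C_G(N))` satisfy `FacA p`, where `N` is the
largest normal `p'`-subgroup of `G`. -/
theorem Vale.Agent.Results.P240.AllPrimes.result (G : Type u) [Group G] [Finite G] (p : ℕ)
    (hp : p.Prime) (hO : OpTrivial p G) :
    ((Factors p G fun L _ => FacA p L) → ¬ ContractibleSpace (Realization (Ap p G)) ∧
      ∀ (𝕜 : Type v) [Field 𝕜], HQ 𝕜 p G) ∧
    ∀ (N : Subgroup G) [N.Normal], (RedComp p N fun L _ => FacA p L) →
      ¬ ContractibleSpace (Realization (Ap p G)) ∧ ∀ (𝕜 : Type v) [Field 𝕜], HQ 𝕜 p G :=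
  ⟨fun h => main_factor hp hO h, fun N _ h => main_comp hp hO N h⟩
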